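import Vale.Agent.P011.H519.SpanCSA

/-!
Polynomial functions on a splitting of a division algebra over an infinite field; every element is
a quotient of two elements which are polynomials in a given power of themselves.
-/

open Module Polynomial Matrix

set_option linter.unusedSectionVars false

namespace Vale.Agent.P011UE3

open Vale.Agent.P011

section pol

variable {Ω V : Type*} [Field Ω] [AddCommGroup V] [Module Ω V]

/-- A function which is a polynomial on every line. -/
def Pol (P : V → Ω) : Prop := ∀ A B : V, ∃ p : Polynomial Ω, ∀ t : Ω, P (A + t • B) = p.eval t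

theorem Pol.mul {P Q : V → Ω} (hP : Pol P) (hQ : Pol Q) : Pol fun A => P A * Q A := fun A B => by
  obtain ⟨p, hp⟩ := hP A B
  obtain ⟨q, hq⟩ := hQ A B
  exact ⟨p * q, fun t => by rw [eval_mul, ← hp, ← hq]⟩

theorem Pol.comp {P : V → Ω} (hP : Pol P) (L : V →ₗ[Ω] V) : Pol fun A => P (L A) := fun A B => by
  obtain ⟨p, hp⟩ := hP (L A) (L B)
  exact ⟨p, fun t => by rw [← hp, ← map_smul, ← map_add]⟩

theorem Pol.finite {P : V → Ω} (hP : Pol P) {A B : V} {c : Ω} (h : P (A + c • B) ≠ 0) :
    {t : Ω | P (A + t • B) = 0}.Finite := by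
  obtain ⟨p, hp⟩ := hP A B
  have h0 : p ≠ 0 := by
    rintro rfl
    exact h (by rw [hp, eval_zero])
  refine (finite_setOfPred_isRoot h0).subset fun t ht => ?_
  have h1 : P (A + t • B) = 0 := ht
  rwa [hp] at h1

theorem Pol.both [Infinite Ω] {P Q : V → Ω} (hP : Pol P) (hQ : Pol Q) {A B : V} (hA : P A ≠ 0)
    (hB : Q B ≠ 0) : ∃ C, P C * Q C ≠ 0 := by
  have h1 := hP.finite (A := A) (B := B - A) (c := 0) (by rwa [zero_smul, add_zero])
  have h2 := hQ.finite (A := A) (B := B - A) (c := 1) (by rwa [one_smul, add_sub_cancel])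
  obtain ⟨t, ht⟩ := (h1.union h2).infinite_compl.nonempty
  exact ⟨_, mul_ne_zero (fun h => ht (Or.inl h)) fun h => ht (Or.inr h)⟩

/-- A nonzero polynomial function does not vanish on a spanning subspace over an infinite
subfield. -/
theorem Pol.exists_ne {K W : Type*} [Field K] [Infinite K] [AddCommGroup W] [Module K W]
    (φ : K →+* Ω) (f : W →+ V) (hf : ∀ (c : K) (x : W), f (c • x) = φ c • f x)
    (hspan : Submodule.span Ω (Set.range f) = ⊤) {P : V → Ω} (hP : Pol P) {A : V} (hA : P A ≠ 0) :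
    ∃ y : W, P (f y) ≠ 0 := by
  have key : ∀ B ∈ Submodule.span Ω (Set.range f), ∀ (c : Ω) (A : V), P (A + c • B) ≠ 0 →
      ∃ y : W, P (A + f y) ≠ 0 := by
    intro B hB
    induction hB using Submodule.span_induction with
    | mem B hB =>
      obtain ⟨b, rfl⟩ := hB
      intro c A h
      obtain ⟨t, ht⟩ := ((hP.finite h).preimage φ.injective.injOn).infinite_compl.nonempty
      exact ⟨t • b, by rw [hf]; exact ht⟩
    | zero => exact fun c A h => ⟨0, by rwa [map_zero, ← smul_zero c]⟩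
    | add B B' _ _ h1 h2 =>
      intro c A h
      rw [smul_add, ← add_assoc] at h
      obtain ⟨y', hy'⟩ := h2 c _ h
      rw [add_right_comm] at hy'
      obtain ⟨y, hy⟩ := h1 c _ hy'
      exact ⟨y' + y, by rwa [map_add, ← add_assoc]⟩
    | smul a B _ h1 => exact fun c A h => h1 (c * a) A (by rwa [mul_smul])
  obtain ⟨y, hy⟩ := key A (hspan ▸ Submodule.mem_top) 1 0 (by rwa [one_smul, zero_add])
  exact ⟨y, by rwa [zero_add] at hy⟩

end pol

section cyc

variable {n : ℕ}

/-- The determinant which says that the vector of ones is cyclic for the power `M`. -/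
def cyc {R : Type*} [CommRing R] (M : ℕ) (A : Matrix (Fin n) (Fin n) R) : R :=
  A.det * (Matrix.of fun i j : Fin n => ∑ l, ((A ^ M) ^ (j : ℕ)) i l).det

theorem map_cyc {R S : Type*} [CommRing R] [CommRing S] (φ : R →+* S) (M : ℕ)
    (A : Matrix (Fin n) (Fin n) R) : φ (cyc M A) = cyc M (φ.mapMatrix A) := by
  rw [cyc, cyc, map_mul, RingHom.map_det, RingHom.map_det, ← map_pow]
  congr 2
  ext i j
  rw [RingHom.mapMatrix_apply, Matrix.map_apply, of_apply, of_apply, map_sum, ← map_pow]
  rfl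

variable {Ω : Type*} [Field Ω]

theorem pol_cyc (M : ℕ) : Pol (cyc M : Matrix (Fin n) (Fin n) Ω → Ω) := fun A B => by
  refine ⟨cyc M (A.map C + (X : Polynomial Ω) • B.map C), fun t => ?_⟩
  rw [← coe_evalRingHom, map_cyc]
  congr 1
  ext i j
  simp
  exact mul_comm _ _

theorem exists_cyc [Infinite Ω] {M : ℕ} (hM : 0 < M) :
    ∃ A : Matrix (Fin n) (Fin n) Ω, cyc M A ≠ 0 := by
  have hfin : ∀ y : Ω, {x : Ω | x ^ M = y}.Finite := fun y =>
    (finite_setOfPred_isRoot (X_pow_sub_C_ne_zero hM y)).subset fun x hx => by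
      have h1 : x ^ M = y := hx
      simp [h1]
  have hinf : (Set.range (fun x : Ω => x ^ M) \ {0}).Infinite := by
    refine Set.Infinite.sdiff (fun h => ?_) (Set.finite_singleton 0)
    refine Set.infinite_univ (α := Ω) ((h.biUnion fun y _ => hfin y).subset fun x _ => ?_)
    exact Set.mem_biUnion (Set.mem_range_self x) rfl
  obtain ⟨b, hb⟩ : ∃ b : Fin n → Ω, Function.Injective b ∧
      ∀ i, b i ∈ Set.range (fun x : Ω => x ^ M) \ {0} :=
    ⟨fun i => (hinf.natEmbedding _ i : Ω), fun i j h =>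
      Fin.val_injective ((hinf.natEmbedding _).injective (Subtype.ext h)),
      fun i => (hinf.natEmbedding _ i).2⟩
  choose a ha using fun i => (hb.2 i).1
  refine ⟨diagonal a, mul_ne_zero ?_ ?_⟩
  · rw [det_diagonal]
    refine Finset.prod_ne_zero_iff.2 fun i _ h => (hb.2 i).2 ?_
    rw [← ha i]
    simp [h, hM.ne']
  · have h1 : (Matrix.of fun i j : Fin n => ∑ l, ((diagonal a ^ M) ^ (j : ℕ)) i l) =
        vandermonde b := by
      ext i j
      rw [of_apply, vandermonde_apply, diagonal_pow, diagonal_pow, ← ha i]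
      simp [diagonal_apply]
    rw [h1]
    exact det_vandermonde_ne_zero_iff.2 hb.1

theorem indep_of_cyc {M : ℕ} {A : Matrix (Fin n) (Fin n) Ω} (h : cyc M A ≠ 0) :
    LinearIndependent Ω fun j : Fin n => (A ^ M) ^ (j : ℕ) := by
  rw [Fintype.linearIndependent_iff]
  intro c hc
  have h1 := (isUnit_iff_isUnit_det _).2 (isUnit_iff_ne_zero.2 (right_ne_zero_of_mul h))
  have h2 := mulVec_injective_iff_isUnit.2 h1 (a₁ := c) (a₂ := 0) (by
    rw [mulVec_zero]
    funext i
    have h3 : ∑ l, (∑ j, c j • (A ^ M) ^ (j : ℕ)) i l = 0 := by simp [hc]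
    rw [Pi.zero_apply, ← h3, mulVec, dotProduct]
    simp only [of_apply, Matrix.sum_apply, Matrix.smul_apply, smul_eq_mul, Finset.sum_mul]
    rw [Finset.sum_comm]
    exact Finset.sum_congr rfl fun _ _ => Finset.sum_congr rfl fun _ _ => mul_comm _ _)
  exact fun j => congrFun h2 j

end cyc

section div

variable {K D Ω : Type*} [Field K] [DivisionRing D] [Algebra K D] [Algebra.IsCentral K D]
  [Field Ω] [Algebra K Ω] {n : ℕ}

theorem fd_of (hn : n ≠ 0) (hD : finrank K D = n ^ 2) : FiniteDimensional K D :=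
  Module.finite_of_finrank_pos (by rw [hD]; positivity)

/-- Commutative subalgebras generated by one element have dimension at most the degree. -/
theorem deg_le (hn : n ≠ 0) (hD : finrank K D = n ^ 2) (f : D →ₐ[K] Matrix (Fin n) (Fin n) Ω)
    (s : D) : (minpoly K s).natDegree ≤ n := by
  have := fd_of hn hD
  have : NeZero n := ⟨hn⟩
  by_contra hlt
  push Not at hlt
  have h1 := H519.linearIndependent_map (algebraMap K Ω) (f : D →+* Matrix (Fin n) (Fin n) Ω)
    (fun c => f.commutes c) (linearIndependent_pow (K := K) s)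
  have h2 := h1.comp (Fin.castLE hlt) (Fin.castLE_injective hlt)
  have h5 := Fintype.linearIndependent_iff.mp h2 (fun i => (f s).charpoly.coeff i) (by
    have h6 := Matrix.aeval_self_charpoly (f s)
    rw [aeval_eq_sum_range, Matrix.charpoly_natDegree_eq_dim, Fintype.card_fin] at h6
    rw [← h6, Finset.sum_range]
    simp) (Fin.last n)
  have h8 := (Matrix.charpoly_monic (f s)).coeff_natDegree
  rw [Matrix.charpoly_natDegree_eq_dim, Fintype.card_fin] at h8
  rw [Fin.val_last, h8] at h5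
  exact one_ne_zero h5

theorem mem_adjoin_of_indep (hn : n ≠ 0) (hD : finrank K D = n ^ 2)
    (f : D →ₐ[K] Matrix (Fin n) (Fin n) Ω) {s e : D} (he : e ∈ Algebra.adjoin K {s})
    (h : LinearIndependent Ω fun j : Fin n => f e ^ (j : ℕ)) : s ∈ Algebra.adjoin K {e} := by
  have := fd_of hn hD
  have hs : IsIntegral K s := Algebra.IsIntegral.isIntegral s
  have h1 : LinearIndependent K fun j : Fin n => e ^ (j : ℕ) := by
    refine LinearIndependent.of_comp f.toLinearMap ?_
    have h2 : (f.toLinearMap ∘ fun j : Fin n => e ^ (j : ℕ)) = fun j : Fin n => f e ^ (j : ℕ) :=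
      funext fun j => map_pow f e j
    rw [h2]
    exact h.restrict_scalars' K
  have hle : Submodule.span K (Set.range fun j : Fin n => e ^ (j : ℕ)) ≤ Submodule.span K
      (Set.range fun i : Fin (minpoly K s).natDegree => s ^ (i : ℕ)) := by
    rw [Submodule.span_le]
    rintro _ ⟨j, rfl⟩
    have h3 : e ^ (j : ℕ) ∈ Algebra.adjoin K {s} := pow_mem he _
    rw [Algebra.adjoin_singleton_eq_range_aeval] at h3
    obtain ⟨p, hp⟩ := h3
    exact hs.mem_span_pow ⟨p, hp.symm⟩
  have heq := Submodule.eq_of_le_of_finrank_le hle (by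
    rw [finrank_span_eq_card h1, finrank_span_eq_card (linearIndependent_pow s), Fintype.card_fin,
      Fintype.card_fin]
    exact deg_le hn hD f s)
  have h4 : s ∈ Submodule.span K (Set.range fun j : Fin n => e ^ (j : ℕ)) :=
    heq ▸ hs.mem_span_pow ⟨X, (aeval_X s).symm⟩
  refine (Submodule.span_le (p := Subalgebra.toSubmodule (Algebra.adjoin K {e}))).2 ?_ h4
  rintro _ ⟨j, rfl⟩
  exact pow_mem (Algebra.subset_adjoin (Set.mem_singleton e)) _

theorem span_top (hn : n ≠ 0) (hD : finrank K D = n ^ 2) (f : D →ₐ[K] Matrix (Fin n) (Fin n) Ω) :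
    Submodule.span Ω (Set.range f) = ⊤ :=
  H519.span_range_eq_top hD hn (algebraMap K Ω) (f : D →+* Matrix (Fin n) (Fin n) Ω)
    fun c => f.commutes c

/-- A nonzero polynomial function on the matrices is nonzero at `y` and `y x` for some `y`. -/
theorem exists_two [Infinite K] (hn : n ≠ 0) (hD : finrank K D = n ^ 2)
    (f : D →ₐ[K] Matrix (Fin n) (Fin n) Ω) {P : Matrix (Fin n) (Fin n) Ω → Ω} (hP : Pol P)
    {A : Matrix (Fin n) (Fin n) Ω} (hA : P A ≠ 0) (x : Dˣ) :
    ∃ y : D, P (f y) ≠ 0 ∧ P (f (y * x)) ≠ 0 := by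
  have : Infinite Ω := Infinite.of_injective _ (algebraMap K Ω).injective
  have hQ := hP.comp (LinearMap.mulRight Ω (f x))
  obtain ⟨C, hC⟩ := hP.both hQ hA (B := A * f (x⁻¹ : Dˣ)) (by
    rwa [LinearMap.mulRight_apply, mul_assoc, ← map_mul, Units.inv_mul, map_one, mul_one])
  have h1 : ∀ (c : K) (x : D), f (c • x) = algebraMap K Ω c • f x :=
    fun c x => (map_smul f c x).trans (algebraMap_smul Ω c (f x)).symm
  obtain ⟨y, hy⟩ := Pol.exists_ne (algebraMap K Ω)
    (AddMonoidHom.mk' (fun x : D => f x) (map_add f)) h1 (span_top hn hD f) (hP.mul hQ) hC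
  have h2 : P (f y) * P (f y * f x) ≠ 0 := hy
  exact ⟨y, left_ne_zero_of_mul h2, by rw [map_mul]; exact right_ne_zero_of_mul h2⟩

/-- **Generators.** -/
theorem exists_gen [Infinite K] (hn : n ≠ 0) (hD : finrank K D = n ^ 2)
    (f : D →ₐ[K] Matrix (Fin n) (Fin n) Ω) {M : ℕ} (hM : 0 < M) (x : Dˣ) :
    ∃ y : Dˣ, (y : D) ∈ Algebra.adjoin K {(y : D) ^ M} ∧
      ((y * x : Dˣ) : D) ∈ Algebra.adjoin K {((y * x : Dˣ) : D) ^ M} := by
  have : Infinite Ω := Infinite.of_injective _ (algebraMap K Ω).injective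
  have : NeZero n := ⟨hn⟩
  obtain ⟨A, hA⟩ := exists_cyc (n := n) (Ω := Ω) hM
  obtain ⟨y, h1, h2⟩ := exists_two hn hD f (pol_cyc M) hA x
  have h0 : y ≠ 0 := by
    rintro rfl
    exact left_ne_zero_of_mul h1 (by rw [map_zero, det_zero])
  have key : ∀ z : D, cyc M (f z) ≠ 0 → z ∈ Algebra.adjoin K {z ^ M} := fun z hz =>
    mem_adjoin_of_indep hn hD f (pow_mem (Algebra.subset_adjoin (Set.mem_singleton z)) M)
      (by rw [map_pow]; exact indep_of_cyc hz)
  exact ⟨Units.mk0 y h0, key _ h1, key _ h2⟩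

end div

end Vale.Agent.P011UE3
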