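import Vale.Agent.P011UE3.Gen

/-!
**Abelian quotients without continuity are central.** `N ≤ H ≤ G` are subgroups of the
multiplicative group of a division ring with a ring topology, `N` and `H` normal, `H` open in `G`,
`N` dense in `H`, and `H / N` abelian. Then the commutators act trivially on `H / N`.
-/

open Module Polynomial Topology Filter
open scoped commutatorElement

set_option linter.unusedSectionVars false

namespace Vale.Agent.P011UE3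

section grp

variable {Γ : Type*} [Group Γ]

/-- The elements acting trivially on `H / N`. -/
def Cen (N H : Subgroup Γ) [N.Normal] : Subgroup Γ :=
  (Subgroup.centralizer (H.map (QuotientGroup.mk' N) : Set (Γ ⧸ N))).comap (QuotientGroup.mk' N)

theorem comm_mem_iff {N : Subgroup Γ} [N.Normal] {g h : Γ} :
    ⁅g, h⁆ ∈ N ↔ Commute (QuotientGroup.mk' N g) (QuotientGroup.mk' N h) := by
  rw [← commutatorElement_eq_one_iff_commute, ← map_commutatorElement, QuotientGroup.mk'_apply,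
    QuotientGroup.eq_one_iff]

theorem mem_Cen {N H : Subgroup Γ} [N.Normal] {g : Γ} : g ∈ Cen N H ↔ ∀ h ∈ H, ⁅g, h⁆ ∈ N := by
  rw [Cen, Subgroup.mem_comap, Subgroup.mem_centralizer_iff]
  constructor
  · exact fun h x hx => comm_mem_iff.2 (h _ (Subgroup.mem_map_of_mem _ hx)).symm
  · rintro h _ ⟨x, hx, rfl⟩
    exact (comm_mem_iff.1 (h x hx)).symm

instance (N H : Subgroup Γ) [N.Normal] [H.Normal] : (Cen N H).Normal := by
  have : (H.map (QuotientGroup.mk' N)).Normal :=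
    Subgroup.Normal.map inferInstance _ (QuotientGroup.mk'_surjective N)
  unfold Cen
  infer_instance

end grp

section top

variable {K D : Type*} [Field K] [DivisionRing D] [Algebra K D]
  [TopologicalSpace D] [IsTopologicalRing D] [ContinuousInv₀ D] [T1Space D]

theorem commute_aeval (x : D) (p : K[X]) : Commute (aeval x p) x := by
  have h := Commute.all p X
  have h1 := h.map (aeval x)
  rwa [aeval_X] at h1

theorem continuous_aeval' (p : K[X]) : Continuous fun x : D => aeval x p := by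
  induction p using Polynomial.induction_on' with
  | add p q hp hq =>
    simp only [map_add]
    exact hp.add hq
  | monomial m c =>
    simp only [aeval_monomial]
    exact continuous_const.mul (continuous_pow m)

/-- An element of `h N` close to `e` commutes with an element close to a polynomial in `e`. -/
theorem exists_near {N H : Subgroup Dˣ} [N.Normal]
    (hdense : ∀ h ∈ H, ∀ O ∈ 𝓝 (h : D), ∃ x ∈ N, (x : D) ∈ O) {u e h : Dˣ} (he : e ∈ H)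
    (hue : (u : D) ∈ Algebra.adjoin K {(e : D)}) (hh : h ∈ H) {O : Set D} (hO : O ∈ 𝓝 (u : D)) :
    ∃ w : Dˣ, (w : D) ∈ O ∧ ⁅w, h⁆ ∈ N := by
  obtain ⟨p, hp⟩ := Algebra.adjoin_singleton_eq_range_aeval K (e : D) ▸ hue
  have hp' : aeval (e : D) p = (u : D) := hp
  have hc : Continuous fun x : D => aeval ((h : D) * x) p :=
    (continuous_aeval' p).comp (continuous_const.mul continuous_id)
  have h1 : aeval ((h : D) * ((h⁻¹ * e : Dˣ) : D)) p = u := by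
    rw [← Units.val_mul, mul_inv_cancel_left, hp']
  obtain ⟨x, hx, h2, h3⟩ := hdense _ (H.mul_mem (H.inv_mem hh) he) _
    (hc.continuousAt.preimage_mem_nhds (t := O ∩ {y | y ≠ 0}) (by
      rw [h1]
      exact inter_mem hO (isOpen_ne.mem_nhds u.ne_zero)))
  refine ⟨Units.mk0 _ h3, h2, comm_mem_iff.2 ?_⟩
  have h4 : Commute (Units.mk0 _ h3) (h * x) := Units.ext (commute_aeval ((h : D) * x) p)
  have h5 := h4.map (QuotientGroup.mk' N)
  rwa [map_mul, QuotientGroup.mk'_apply N x, (QuotientGroup.eq_one_iff x).2 hx, mul_one] at h5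

theorem comm_comm {N H G : Subgroup Dˣ} [N.Normal] (hcomm : commutator Dˣ ≤ G)
    (hab : ⁅H, H⁆ ≤ N) (hopen : ∃ O ∈ 𝓝 (1 : D), ∀ g ∈ G, (g : D) ∈ O → g ∈ H)
    (hdense : ∀ h ∈ H, ∀ O ∈ 𝓝 (h : D), ∃ x ∈ N, (x : D) ∈ O) {u₁ u₂ e₁ e₂ : Dˣ} (he₁ : e₁ ∈ H)
    (he₂ : e₂ ∈ H) (h₁ : (u₁ : D) ∈ Algebra.adjoin K {(e₁ : D)})
    (h₂ : (u₂ : D) ∈ Algebra.adjoin K {(e₂ : D)}) : ⁅u₁, u₂⁆ ∈ Cen N H := by
  refine mem_Cen.2 fun h hh => ?_
  obtain ⟨O, hO, hOG⟩ := hopen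
  obtain ⟨φ, hφ⟩ : ∃ φ : D × D → D, φ = fun p => ((⁅u₁, u₂⁆⁻¹ : Dˣ) : D) *
      (p.1 * p.2 * p.1⁻¹ * p.2⁻¹) := ⟨_, rfl⟩
  have hv : ∀ a b : Dˣ, φ (a, b) = ((⁅u₁, u₂⁆⁻¹ * ⁅a, b⁆ : Dˣ) : D) := fun a b => by
    rw [hφ, Units.val_mul, commutatorElement_def a b]
    simp only [Units.val_mul, Units.val_inv_eq_inv_val]
  have hc : ContinuousAt φ ((u₁ : D), (u₂ : D)) := by
    rw [hφ]
    have c1 : ContinuousAt (fun p : D × D => p.1) ((u₁ : D), (u₂ : D)) := continuousAt_fst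
    have c2 : ContinuousAt (fun p : D × D => p.2) ((u₁ : D), (u₂ : D)) := continuousAt_snd
    exact continuousAt_const.mul (((c1.mul c2).mul (c1.inv₀ u₁.ne_zero)).mul
      (c2.inv₀ u₂.ne_zero))
  have hpre : φ ⁻¹' O ∈ 𝓝 ((u₁ : D), (u₂ : D)) :=
    hc.preimage_mem_nhds (by rwa [hv, inv_mul_cancel, Units.val_one])
  rw [nhds_prod_eq, Filter.mem_prod_iff] at hpre
  obtain ⟨O₁, hO₁, O₂, hO₂, hO12⟩ := hpre
  obtain ⟨w₁, hw₁, hc₁⟩ := exists_near (K := K) hdense he₁ h₁ hh hO₁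
  obtain ⟨w₂, hw₂, hc₂⟩ := exists_near (K := K) hdense he₂ h₂ hh hO₂
  have hm : ∀ a b : Dˣ, ⁅a, b⁆ ∈ G := fun a b =>
    hcomm (Subgroup.commutator_mem_commutator (Subgroup.mem_top a) (Subgroup.mem_top b))
  have hg : ⁅u₁, u₂⁆⁻¹ * ⁅w₁, w₂⁆ ∈ H := hOG _ (G.mul_mem (G.inv_mem (hm _ _)) (hm _ _))
    (hv w₁ w₂ ▸ hO12 (Set.mk_mem_prod hw₁ hw₂))
  have h3 := comm_mem_iff.1 (hab (Subgroup.commutator_mem_commutator hg hh))
  rw [comm_mem_iff] at hc₁ hc₂ ⊢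
  have h4 : ⁅u₁, u₂⁆ = w₁ * w₂ * w₁⁻¹ * w₂⁻¹ * (⁅u₁, u₂⁆⁻¹ * ⁅w₁, w₂⁆)⁻¹ := by
    rw [commutatorElement_def w₁]; group
  rw [h4, map_mul, map_mul, map_mul, map_mul, map_inv, map_inv, map_inv]
  exact (((hc₁.mul_left hc₂).mul_left hc₁.inv_left).mul_left hc₂.inv_left).mul_left h3.inv_left

variable [Algebra.IsCentral K D] [Infinite K] {Ω : Type*} [Field Ω] [Algebra K Ω] {n : ℕ}

/-- **The commutators act trivially on `H / N`.** -/
theorem commutator_le_Cen (hn : n ≠ 0) (hD : finrank K D = n ^ 2)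
    (f : D →ₐ[K] Matrix (Fin n) (Fin n) Ω) {N H G : Subgroup Dˣ} [N.Normal] [H.Normal]
    (hcomm : commutator Dˣ ≤ G) (hab : ⁅H, H⁆ ≤ N)
    (hopen : ∃ O ∈ 𝓝 (1 : D), ∀ g ∈ G, (g : D) ∈ O → g ∈ H)
    (hdense : ∀ h ∈ H, ∀ O ∈ 𝓝 (h : D), ∃ x ∈ N, (x : D) ∈ O) {M : ℕ} (hM : 0 < M)
    (hpow : ∀ u : Dˣ, ∃ (a : K) (e : Dˣ), e ∈ H ∧ (u : D) ^ M = a • (e : D)) :
    commutator Dˣ ≤ Cen N H := by
  have key : ∀ u : Dˣ, (u : D) ∈ Algebra.adjoin K {(u : D) ^ M} →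
      ∃ e ∈ H, (u : D) ∈ Algebra.adjoin K {(e : D)} := fun u hu => by
    obtain ⟨a, e, he, h⟩ := hpow u
    refine ⟨e, he, Algebra.adjoin_le (Set.singleton_subset_iff.2 ?_) hu⟩
    rw [h]
    exact Subalgebra.smul_mem _ (Algebra.subset_adjoin (Set.mem_singleton _)) a
  have h2 : ∀ u v : Dˣ, (u : D) ∈ Algebra.adjoin K {(u : D) ^ M} →
      (v : D) ∈ Algebra.adjoin K {(v : D) ^ M} →
      Commute (QuotientGroup.mk' (Cen N H) u) (QuotientGroup.mk' (Cen N H) v) := fun u v hu hv => by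
    obtain ⟨e₁, he₁, h₁⟩ := key u hu
    obtain ⟨e₂, he₂, h₂⟩ := key v hv
    exact comm_mem_iff.1 (comm_comm hcomm hab hopen hdense he₁ he₂ h₁ h₂)
  rw [commutator_def, Subgroup.commutator_le]
  intro x _ y _
  obtain ⟨a, ha, ha'⟩ := exists_gen hn hD f hM x
  obtain ⟨b, hb, hb'⟩ := exists_gen hn hD f hM y
  rw [comm_mem_iff, ← inv_mul_cancel_left a x, ← inv_mul_cancel_left b y, map_mul _ a⁻¹,
    map_mul _ b⁻¹, map_inv, map_inv]
  exact ((h2 _ _ ha hb).inv_right.mul_right (h2 _ _ ha hb')).inv_left.mul_left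
    ((h2 _ _ ha' hb).inv_right.mul_right (h2 _ _ ha' hb'))

end top

section norm

variable {D R : Type*} [DivisionRing D] [NormedRing R]

theorem inv_near {x y : Rˣ} (h : ‖(y : R) - x‖ * ‖((x⁻¹ : Rˣ) : R)‖ ≤ 1 / 2) :
    ‖((y⁻¹ : Rˣ) : R) - (x⁻¹ : Rˣ)‖ ≤ 2 * ‖((x⁻¹ : Rˣ) : R)‖ ^ 2 * ‖(y : R) - x‖ := by
  have h1 : ((y⁻¹ : Rˣ) : R) - (x⁻¹ : Rˣ) = -((y⁻¹ : Rˣ) * ((y : R) - x) * (x⁻¹ : Rˣ)) := by
    rw [mul_sub, Units.inv_mul, sub_mul, one_mul, mul_assoc, Units.mul_inv, mul_one, neg_sub]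
  have h2 : ‖((y⁻¹ : Rˣ) : R) - (x⁻¹ : Rˣ)‖ ≤
      ‖((y⁻¹ : Rˣ) : R)‖ * (‖(y : R) - x‖ * ‖((x⁻¹ : Rˣ) : R)‖) := by
    rw [h1, norm_neg, mul_assoc]
    exact (norm_mul_le _ _).trans (mul_le_mul_of_nonneg_left (norm_mul_le _ _) (norm_nonneg _))
  have h3 := norm_sub_norm_le ((y⁻¹ : Rˣ) : R) (x⁻¹ : Rˣ)
  have h4 := norm_nonneg (((y⁻¹ : Rˣ) : R) - (x⁻¹ : Rˣ))
  have h5 := mul_nonneg (norm_nonneg ((y : R) - x)) (norm_nonneg ((x⁻¹ : Rˣ) : R))
  have h6 := norm_nonneg ((x⁻¹ : Rˣ) : R)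
  nlinarith [mul_le_mul_of_nonneg_right h3 h5, mul_le_mul_of_nonneg_left h h4]

theorem continuousInv (j : D →+* R) (hj : Function.Injective j) :
    @ContinuousInv₀ D _ _ (TopologicalSpace.induced j inferInstance) := by
  let _ : TopologicalSpace D := TopologicalSpace.induced j inferInstance
  have hi : IsInducing j := ⟨rfl⟩
  refine ⟨fun x hx => ?_⟩
  rw [ContinuousAt, hi.tendsto_nhds_iff, tendsto_iff_norm_sub_tendsto_zero]
  have h1 : Tendsto (fun y => ‖j y - j x‖) (𝓝 x) (𝓝 0) :=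
    tendsto_iff_norm_sub_tendsto_zero.1 hi.continuous.continuousAt
  have h2 := h1.const_mul (2 * ‖j x⁻¹‖ ^ 2)
  have h3 := h1.mul_const ‖j x⁻¹‖
  rw [mul_zero] at h2
  rw [zero_mul] at h3
  have h4 : ∀ᶠ y in 𝓝 x, j y ≠ 0 := hi.continuous.continuousAt.eventually_ne
    ((map_ne_zero_iff j hj).2 hx)
  refine squeeze_zero' (Eventually.of_forall fun _ => norm_nonneg _) ?_ h2
  filter_upwards [h4, h3.eventually (Iic_mem_nhds (by norm_num : (0 : ℝ) < 1 / 2))] with y hy h5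
  have hy0 : y ≠ 0 := fun h => hy (by rw [h, map_zero])
  exact inv_near (x := Units.map (j : D →* R) (Units.mk0 x hx))
    (y := Units.map (j : D →* R) (Units.mk0 y hy0)) h5

variable {K : Type*} [Field K] [Algebra K D] [Algebra.IsCentral K D] [Infinite K] {Ω : Type*}
  [Field Ω] [Algebra K Ω] {n : ℕ}

/-- **The commutators act trivially on `H / N`**, for the topology given by a homomorphism to a
normed ring. -/
theorem rh_norm (hn : n ≠ 0) (hD : finrank K D = n ^ 2) (f : D →ₐ[K] Matrix (Fin n) (Fin n) Ω)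
    (j : D →+* R) {N H G : Subgroup Dˣ} [N.Normal] [H.Normal]
    (hcomm : commutator Dˣ ≤ G) (hab : ⁅H, H⁆ ≤ N) {ε : ℝ} (hε : 0 < ε)
    (hopen : ∀ g ∈ G, ‖j g - 1‖ < ε → g ∈ H)
    (hdense : ∀ h ∈ H, ∀ δ : ℝ, 0 < δ → ∃ x ∈ N, ‖j x - j h‖ < δ) {M : ℕ} (hM : 0 < M)
    (hpow : ∀ u : Dˣ, ∃ (a : K) (e : Dˣ), e ∈ H ∧ (u : D) ^ M = a • (e : D)) :
    commutator Dˣ ≤ Cen N H := by
  rcases subsingleton_or_nontrivial R with hR | hR
  · exact fun g hg => mem_Cen.2 fun h hh => hab (Subgroup.commutator_mem_commutator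
      (hopen g (hcomm hg) (by rwa [Subsingleton.elim (j g - 1) 0, norm_zero])) hh)
  let _ : NormedRing D := NormedRing.induced D R j j.injective
  have : ContinuousInv₀ D := continuousInv j j.injective
  refine commutator_le_Cen hn hD f hcomm hab ⟨Metric.ball 1 ε, Metric.ball_mem_nhds _ hε,
    fun g hg h => hopen g hg ?_⟩ (fun h hh O hO => ?_) hM hpow
  · rw [Metric.mem_ball, dist_eq_norm] at h
    rwa [← map_one j, ← map_sub]
  · obtain ⟨δ, hδ, h1⟩ := Metric.mem_nhds_iff.1 hO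
    obtain ⟨x, hx, h2⟩ := hdense h hh δ hδ
    refine ⟨x, hx, h1 ?_⟩
    rw [Metric.mem_ball, dist_eq_norm]
    rwa [← map_sub] at h2

end norm

end Vale.Agent.P011UE3
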